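import Vale.Agent.P354PE.Elb

/-!
The elliptic estimate ELT far from the ergoregion: all jets from the powers of T.
-/

open scoped ContDiff

namespace Vale.Agent.P354PE

open Vale.Agent.P354XT Vale.Agent.P354XI Vale.Agent.P354XI.Ibp Finset
open Vale.Agent.P354BF (De)

/-- ELT, for r ≥ 6 M0: the level m + 1 from the first jets of T^m. -/
def ELT : Prop :=
  ∀ (M0 a0 rm r2 R0 Cf s : ℝ) (f : ℝ × ℝ × ℝ → ℝ) (n k : ℕ), |a0| < M0 → 6 * M0 ≤ r2 →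
    Continuous f → 1 ≤ n → ∃ C dl eps : ℝ, 0 < C ∧ 0 < dl ∧ 0 < eps ∧
    ∀ M a rI R1 e : ℝ, |M - M0| < dl → |a - a0| < dl → rI ≤ r2 → 3 * R0 ≤ 4 * R1 → e ≤ eps →
    ∀ (A : Type) [CommRing A] [Algebra ℂ A] (Φ : Fld A) (D : Dat A), Φ.Is → Φ.s = s →
      (Φ.f = fun r => f (M, a, r)) → Fam Φ D M a n k Cf rm rI R0 R1 e → ∀ m ≤ n + k,
      ∀ φ ψ : ℝ × ℝ → ℝ, ContDiff ℝ ∞ φ → ContDiff ℝ ∞ ψ → (∀ p, 0 ≤ φ p ∧ φ p ≤ ψ p) →
      (∀ p, fderiv ℝ φ p (1, 0) ^ 2 ≤ φ p * ψ p ∧ fderiv ℝ φ p (0, 1) ^ 2 ≤ φ p * ψ p) →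
      (∀ p, p ∉ Set.Icc D.t1 (D.t1 + D.K + 2) ×ˢ Set.Icc r2 (3 * R0) → ψ p = 0) →
      Φ.B.J (Φ.fn φ * Φ.lv (m + 1) D.f) ≤
        C * (Φ.B.J (Φ.fn φ * Φ.jq 1 (D.f (List.replicate m 0))) +
          Φ.B.J (Φ.fn ψ * Φ.lv m D.f) + Φ.B.J (Φ.fn ψ * D.rho))

theorem elt : ELT := by
  intro M0 a0 rm r2 R0 Cf s f n k h0 h2 ct n1
  have m0 : 0 < M0 := (abs_nonneg a0).trans_lt h0
  have hD : ∀ M a, |M - M0| < min 1 (M0 / 10) → |a - a0| < min 1 (M0 / 10) → ∀ r, r2 ≤ r →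
      M0 ^ 2 ≤ De M a r ∧ 16 * a ^ 2 ≤ De M a r := fun M a hM ha r hr => by
    have k1 := (abs_lt.1 (lt_min_iff.1 hM).2).2
    have k2 : |a| ≤ 11 / 10 * M0 := by linarith [abs_sub_abs_le_abs_sub a a0, (lt_min_iff.1 ha).2]
    have k3 : a ^ 2 ≤ (11 / 10 * M0) ^ 2 := sq_abs a ▸ pow_le_pow_left₀ (abs_nonneg a) k2 2
    have k4 : 6 * M0 * (19 / 5 * M0) ≤ r * (r - 2 * M) :=
      mul_le_mul (by linarith) (by linarith) (by linarith) (by linarith)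
    rw [De]
    constructor <;> nlinarith [sq_nonneg a]
  obtain ⟨C, eps, hC, he, H⟩ := ext (S := {1, 2, 3, 4}) (r2 := r2) (c1 := min 1 (M0 ^ 2))
    (by decide) rm R0 Cf s k (by positivity) (min_le_left _ _) (min_le_left 1 (M0 / 10))
    (by linarith) (fun M a hM ha r hr => (min_le_right _ _).trans (hD M a hM ha r hr).1) ct n1
    fun M a hM ha A _ _ Φ h x b u y b1 aa hr y0 u0 u1 => by
      have e : ∑ d ∈ ({1, 2, 3, 4} : Finset (Fin 5)), cf Φ M a d * Φ.X d (Φ.X d u) =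
          Sp Φ M a u - rl A (2 * a) * Φ.X 4 (Φ.X 1 u) := by
        rw [sum_insert (by decide), sum_insert (by decide), sum_pair (by decide), Sp, cf, cf, cf,
          cf, if_pos rfl, if_neg (by decide), if_neg (by decide), if_neg (by decide)]
        ring
      obtain ⟨q1, q2⟩ := hD M a hM ha _ hr
      have p := fun d d' => mul_nonneg (cf_pos h ((sq_nonneg _).trans q1) d d')
        (sq_nonneg (Φ.B.md x (Φ.X d' (Φ.X d u))))
      have q3 := (single_le_sum (fun d' _ => p 1 d')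
        (show 4 ∈ ({1, 2, 3, 4} : Finset (Fin 5)) by decide)).trans (single_le_sum
          (f := fun d => ∑ d' ∈ ({1, 2, 3, 4} : Finset (Fin 5)), Φ.B.val x
            (cf Φ M a d * cf Φ M a d') * Φ.B.md x (Φ.X d' (Φ.X d u)) ^ 2)
          (fun d _ => sum_nonneg fun d' _ => p d d')
          (show 1 ∈ ({1, 2, 3, 4} : Finset (Fin 5)) by decide))
      rw [cf, cf, if_pos rfl, if_neg (by decide), mul_one, val_De h] at q3
      have q4 := sq_split x (Sp Φ M a u - rl A (2 * a) * Φ.X 4 (Φ.X 1 u)) (Sp Φ M a u)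
      rw [sub_sub_cancel_left, md_neg, md_mul, mul_pow, h.B.md_rl, sq_abs] at q4
      have q5 := pow_le_pow_left₀ (md_nonneg _ _) u1 2
      have q6 := mul_le_mul_of_nonneg_right q2 (sq_nonneg (Φ.B.md x (Φ.X 4 (Φ.X 1 u))))
      rw [e]
      nlinarith [sq_nonneg (b ^ 2 * y)]
  refine ⟨C, _, eps, hC, lt_min one_pos (by positivity), he, fun M a rI R1 e hM ha hI hR he A _ _ Φ
    D h hs hf F m hm φ ψ sφ sψ pφ dφ oψ => H M a rI R1 e hM ha hI hR he A Φ D h hs hf F m hm φ ψ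
    sφ sψ pφ dφ oψ _ fun wt => ⟨jq_nonneg h wt _, fun J l c => ⟨_, .of_eq
      (List.eq_replicate_iff.2 ⟨l, fun d hd => ?_⟩), le_rfl⟩⟩⟩
  have q5 := List.countP_eq_zero.1 c d hd
  revert q5
  clear hd
  revert d
  decide

end Vale.Agent.P354PE
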