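import Vale.Agent.P354XT.Calc

/-!
The elliptic estimate for a family of jets, for an abstract set s of letters: induction on the
number of letters in s.
-/

namespace Vale.Agent.P354PE

open Vale.Agent.P354XT Vale.Agent.P354XI Vale.Agent.P354XI.Ibp Finset

/-! ### Words -/

section words
variable {ι : Type} {g : List ι → ℂ} {β : ℝ} {n : ℕ}

theorem mv (h : ∀ p q b c, p.length + q.length + 2 = n →
    ‖g (p ++ b :: c :: q) - g (p ++ c :: b :: q)‖ ≤ β) (a : ι) (q l p : List ι)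
    (e : p.length + l.length + q.length + 1 = n) :
    ‖g (p ++ (l ++ a :: q)) - g (p ++ a :: (l ++ q))‖ ≤ l.length * β := by
  induction l generalizing p with
  | nil => simp
  | cons b l ih =>
    have k1 := ih (p ++ [b]) (by simp at e ⊢; omega)
    have k2 := h p (l ++ q) b a (by simp at e ⊢; omega)
    simp only [List.append_assoc, List.cons_append, List.nil_append] at k1 ⊢
    refine (norm_sub_le_norm_sub_add_norm_sub _ _ _).trans ((add_le_add k1 k2).trans (le_of_eq ?_))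
    simp only [List.length_cons]
    push_cast
    ring

theorem pm (h : ∀ p q b c, p.length + q.length + 2 = n →
    ‖g (p ++ b :: c :: q) - g (p ++ c :: b :: q)‖ ≤ β) (b0 : 0 ≤ β) (J J' p : List ι)
    (hJ : J.Perm J') (e : p.length + J.length = n) :
    ‖g (p ++ J) - g (p ++ J')‖ ≤ (J.length : ℝ) ^ 2 * β := by
  induction J generalizing p J' with
  | nil => rw [hJ.nil_eq.symm]; simp
  | cons a J ih =>
    obtain ⟨l, q, rfl⟩ := List.append_of_mem (hJ.subset List.mem_cons_self)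
    have k0 : J.Perm (l ++ q) := (hJ.trans List.perm_middle).cons_inv
    have k3 := k0.length_eq
    have k1 := ih (l ++ q) (p ++ [a]) k0 (by simp at e ⊢; omega)
    have k2 := mv h a q l p (by simp at e k3 ⊢; omega)
    simp only [List.append_assoc, List.cons_append, List.nil_append] at k1
    rw [norm_sub_rev] at k2
    refine (norm_sub_le_norm_sub_add_norm_sub _ _ _).trans ((add_le_add k1 k2).trans ?_)
    have k4 : (l.length : ℝ) ≤ J.length := by exact_mod_cast (by simp at k3; omega)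
    have k5 : (0 : ℝ) ≤ J.length := Nat.cast_nonneg _
    simp only [List.length_cons]
    push_cast
    nlinarith [mul_le_mul_of_nonneg_right k4 b0, mul_nonneg k5 b0]

theorem pick [DecidableEq ι] {P : ι → Bool} {J : List ι} (h : 0 < J.countP P) :
    ∃ b J1, P b ∧ J.Perm (b :: J1) ∧ J1.countP P + 1 = J.countP P := by
  obtain ⟨b, hb, e⟩ := List.countP_pos_iff.1 h
  have k := List.perm_cons_erase hb
  exact ⟨b, J.erase b, e, k, by rw [k.countP_eq, List.countP_cons_of_pos e]⟩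

end words

variable {A : Type} [CommRing A] [Algebra ℂ A]

/-- The hypotheses: w ≤ V are weights, lo is the density of lower order, c are the coefficients
of the elliptic operator. -/
structure Hyp (Φ : Fld A) (s : Finset (Fin 5)) (c : Fin 5 → A) (f : List (Fin 5) → A)
    (w V lo : A) (m : ℕ) (κ c0 δ : ℝ) : Prop where
  is : Φ.Is
  wt : Φ.B.Wt w
  Vt : Φ.B.Wt V
  le : ∀ x, Φ.B.val x w ≤ Φ.B.val x V
  lpos : ∀ x, 0 ≤ Φ.B.val x lo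
  rc : ∀ a, Φ.B.Re (c a)
  e0 : ∀ x, ∀ a ∈ s, ∀ b ∈ s, Φ.B.md x (w * c a * c b) ^ 2 ≤ κ * (Φ.B.val x w * Φ.B.val x V)
  e1 : ∀ x, ∀ a ∈ s, ∀ b ∈ s, ∀ d ∈ s,
    Φ.B.md x (Φ.X d (w * c a * c b)) ^ 2 ≤ κ * (Φ.B.val x w * Φ.B.val x V)
  e2 : ∀ x, ∀ a ∈ s, ∀ b ∈ s, c0 * Φ.B.val x w ≤ Φ.B.val x (w * c a * c b)
  h1 : ∀ x, Φ.B.val x V ≠ 0 → ∀ J, J.length ≤ m → Φ.B.md x (f J) ^ 2 ≤ Φ.B.val x lo
  h2 : ∀ x, Φ.B.val x V ≠ 0 → ∀ a J, J.length ≤ m →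
    Φ.B.md x (Φ.X a (f J) - f (a :: J)) ^ 2 ≤ Φ.B.val x lo
  h3 : ∀ x, Φ.B.val x V ≠ 0 → ∀ a b J, J.length + 1 = m →
    Φ.B.md x (Φ.X a (Φ.X b (f J)) - f (a :: b :: J)) ^ 2 ≤ Φ.B.val x lo
  h4 : ∀ x, Φ.B.val x V ≠ 0 → ∀ p q b c, p.length + q.length + 1 = m →
    Φ.B.md x (f (p ++ b :: c :: q) - f (p ++ c :: b :: q)) ^ 2 ≤ Φ.B.val x lo
  h5 : ∀ x, Φ.B.val x V ≠ 0 → ∀ J, J.length + 1 = m →
    Φ.B.md x (∑ a ∈ s, c a * Φ.X a (Φ.X a (f J))) ^ 2 ≤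
      κ * (∑ a ∈ sᶜ, ∑ b, Φ.B.md x (Φ.X a (Φ.X b (f J))) ^ 2 + Φ.B.val x lo +
        δ * Φ.B.val x (Φ.lv (m + 1) f)) +
      (∑ a ∈ s, ∑ b ∈ s, Φ.B.val x (c a * c b) * Φ.B.md x (Φ.X b (Φ.X a (f J))) ^ 2) / 2

theorem sq_split {B : Ibp A} (x : B.Pt) (p q : A) :
    B.md x p ^ 2 ≤ 2 * B.md x q ^ 2 + 2 * B.md x (p - q) ^ 2 := by
  have k := md_add x q (p - q)
  rw [add_sub_cancel] at k
  nlinarith [pow_le_pow_left₀ (md_nonneg x p) k 2, sq_nonneg (B.md x q - B.md x (p - q))]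

namespace Hyp
variable {Φ : Fld A} {s : Finset (Fin 5)} {c : Fin 5 → A} {f : List (Fin 5) → A} {w V lo : A}
  {m : ℕ} {κ c0 δ : ℝ} (h : Hyp Φ s c f w V lo m κ c0 δ)
include h

theorem w0 {x : Φ.B.Pt} (e : Φ.B.val x V = 0) : Φ.B.val x w = 0 :=
  le_antisymm (e ▸ h.le x) (h.wt.pos x)

theorem lo_nonneg : 0 ≤ Φ.B.J (V * lo) := by
  rw [← J_zero (B := Φ.B)]
  exact h.is.B.J_le Φ.B.K.zero_mem (Φ.B.K.mul_mem_right _ h.Vt.K) fun x => by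
    rw [val_zero, h.is.B.val_mul h.Vt.re]; exact mul_nonneg (h.Vt.pos x) (h.lpos x)

omit h in
theorem tp_eq : Φ.B.J (w * Φ.lv (m + 1) f) = ∑ J ∈ words (m + 1), Φ.B.nsq w (f J) := by
  rw [Fld.lv, mul_sum, J_sum]; rfl

theorem tp_nonneg : 0 ≤ Φ.B.J (w * Φ.lv (m + 1) f) := by
  rw [tp_eq]; exact sum_nonneg fun _ _ => h.is.B.nsq_nonneg h.wt _

theorem close {p q : A} {t : ℝ}
    (e : ∀ x, Φ.B.val x V ≠ 0 → Φ.B.md x (p - q) ^ 2 ≤ t * Φ.B.val x lo) :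
    Φ.B.nsq w p ≤ 2 * Φ.B.nsq w q + 2 * t * Φ.B.J (V * lo) := by
  have k := h.is.B
  rw [nsq, nsq, bil, bil, ← J_rl, ← J_rl, ← J_add]
  refine k.J_le (Φ.B.K.mul_mem_right _ h.wt.K) (Φ.B.K.add_mem (Φ.B.K.mul_mem_left _
    (Φ.B.K.mul_mem_right _ h.wt.K)) (Φ.B.K.mul_mem_left _ (Φ.B.K.mul_mem_right _ h.Vt.K)))
    fun x => ?_
  rw [val_add, k.val_mul (k.re_rl _), k.val_mul (k.re_rl _), k.val_rl, k.val_rl,
    k.val_nsq h.wt.re, k.val_nsq h.wt.re, k.val_mul h.Vt.re]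
  by_cases z : Φ.B.val x V = 0
  · rw [h.w0 z, z]; simp
  have a1 := mul_le_mul_of_nonneg_left (sq_split x p q) (h.wt.pos x)
  have a2 := mul_le_mul (h.le x) (e x z) (sq_nonneg _) (h.Vt.pos x)
  nlinarith

theorem perm {J J' : List (Fin 5)} (e : J.Perm J') (hJ : J.length = m + 1) :
    Φ.B.nsq w (f J) ≤ 2 * Φ.B.nsq w (f J') + 2 * ((m : ℝ) + 1) ^ 4 * Φ.B.J (V * lo) := by
  refine h.close fun x z => ?_
  have k := pm (g := fun J => Φ.B.ev x (f J)) (β := √(Φ.B.val x lo)) (n := m + 1)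
    (fun p q b c e => by
      rw [← map_sub]
      exact Real.le_sqrt_of_sq_le (h.h4 x z p q b c (by omega))) (Real.sqrt_nonneg _) J J' [] e
    (by simpa using hJ)
  rw [List.nil_append, List.nil_append, ← map_sub, hJ] at k
  refine (pow_le_pow_left₀ (md_nonneg _ _) k 2).trans (le_of_eq ?_)
  rw [mul_pow, Real.sq_sqrt (h.lpos x)]
  push_cast
  ring

theorem one {x : Φ.B.Pt} (z : Φ.B.val x V ≠ 0) (a : Fin 5) {J : List (Fin 5)}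
    (hJ : J.length + 1 = m) : Φ.B.md x (Φ.X a (f J)) ^ 2 ≤ 4 * Φ.B.val x lo := by
  linarith [sq_split x (Φ.X a (f J)) (f (a :: J)), h.h2 x z a J (by omega),
    h.h1 x z (a :: J) hJ.le]

theorem two {x : Φ.B.Pt} (z : Φ.B.val x V ≠ 0) (a b : Fin 5) {J : List (Fin 5)}
    (hJ : J.length + 1 = m) : Φ.B.md x (Φ.X a (Φ.X b (f J))) ^ 2 ≤
      2 * (Φ.B.val x (Φ.lv (m + 1) f) + Φ.B.val x lo) := by
  linarith [sq_split x (Φ.X a (Φ.X b (f J))) (f (a :: b :: J)), h.h3 x z a b J hJ,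
    h.is.le_lv x f (J := a :: b :: J) (m := m + 1) (by simp; omega)]

theorem md_cm (x : Φ.B.Pt) (a b : Fin 5) : ∃ d, ∀ u,
    Φ.B.md x (Φ.X a (Φ.X b u) - Φ.X b (Φ.X a u)) ^ 2 ≤ Φ.B.md x (Φ.X d u) ^ 2 := by
  obtain ⟨z, d, hz, e⟩ := h.is.comm a b
  refine ⟨d, fun u => pow_le_pow_left₀ (md_nonneg _ _) ?_ 2⟩
  rw [e, md_mul, h.is.B.md_rl]
  exact mul_le_of_le_one_left (md_nonneg _ _) hz

/-- A pairing of a quantity of lower order and a quantity of top order. -/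
theorem pair (k0 : 0 ≤ κ) (d0 : 0 < δ) (d1 : δ ≤ 1) {y p q : A} (hy : y ∈ Φ.B.K)
    (e : ∀ x, Φ.B.md x y ^ 2 ≤ κ * (Φ.B.val x w * Φ.B.val x V))
    (hp : ∀ x, Φ.B.val x V ≠ 0 → (Φ.B.md x p * Φ.B.md x q) ^ 2 ≤
      4 * Φ.B.val x lo * (2 * (Φ.B.val x (Φ.lv (m + 1) f) + Φ.B.val x lo))) :
    |Φ.B.bil y p q| ≤
      (1 + 2 * κ) * (δ⁻¹ * Φ.B.J (V * lo) + δ * Φ.B.J (w * Φ.lv (m + 1) f)) := by
  have k := h.is.B
  have m1 : rl A (1 + 2 * κ) * (rl A δ⁻¹ * (V * lo) + rl A δ * (w * Φ.lv (m + 1) f)) ∈ Φ.B.K :=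
    Φ.B.K.mul_mem_left _ (Φ.B.K.add_mem (Φ.B.K.mul_mem_left _ (Φ.B.K.mul_mem_right _ h.Vt.K))
      (Φ.B.K.mul_mem_left _ (Φ.B.K.mul_mem_right _ h.wt.K)))
  have m2 := Φ.B.K.mul_mem_right (p * Φ.B.c q) hy
  have v : ∀ x, |Φ.B.val x (y * (p * Φ.B.c q))| ≤ Φ.B.val x (rl A (1 + 2 * κ) *
      (rl A δ⁻¹ * (V * lo) + rl A δ * (w * Φ.lv (m + 1) f))) := fun x => by
    refine (k.abs_val_bil x y p q).trans ?_
    rw [k.val_mul (k.re_rl _), val_add, k.val_mul (k.re_rl _), k.val_mul (k.re_rl _), k.val_rl,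
      k.val_rl, k.val_rl, k.val_mul h.Vt.re, k.val_mul h.wt.re]
    have a0 := e x
    by_cases z : Φ.B.val x V = 0
    · rw [z, mul_zero, mul_zero] at a0
      rw [h.w0 z, z, pow_eq_zero_iff two_ne_zero |>.1 (le_antisymm a0 (sq_nonneg _))]
      simp
    have a1 := mul_le_mul a0 (hp x z) (sq_nonneg _)
      (mul_nonneg k0 (mul_nonneg (h.wt.pos x) (h.Vt.pos x)))
    have b1 := h.wt.pos x
    have b2 := h.Vt.pos x
    have b3 := h.lpos x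
    have b4 := h.is.lv_nonneg x (m + 1) f
    have b5 := h.le x
    generalize Φ.B.val x w = W at *
    generalize Φ.B.val x V = U at *
    generalize Φ.B.val x lo = l at *
    generalize Φ.B.val x (Φ.lv (m + 1) f) = t at *
    have i0 : 0 < δ⁻¹ := inv_pos.2 d0
    have i1 : δ ≤ δ⁻¹ := d1.trans ((one_le_inv₀ d0).2 d1)
    have c1 : Φ.B.md x y * (Φ.B.md x p * Φ.B.md x q) ≤
        δ * (W * (t + l)) + δ⁻¹ * (2 * κ * (U * l)) := by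
      refine (abs_le_of_sq_le_sq' ?_ (by positivity)).2
      have c2 : δ * (W * (t + l)) * (δ⁻¹ * (2 * κ * (U * l))) =
        2 * κ * (W * U) * (l * (t + l)) := by field_simp
      nlinarith [sq_nonneg (δ * (W * (t + l)) - δ⁻¹ * (2 * κ * (U * l)))]
    have c3 : δ * (W * l) ≤ δ⁻¹ * (U * l) := by gcongr
    have c4 : 0 ≤ κ * (δ * (W * t)) := by positivity
    nlinarith
  rw [← J_rl, ← J_rl, ← J_add, ← J_rl, abs_le, bil, ← J_neg]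
  exact ⟨k.J_le (Φ.B.K.neg_mem m1) m2 fun x => by rw [val_neg]; exact (abs_le.1 (v x)).1,
    k.J_le m2 m1 fun x => (abs_le.1 (v x)).2⟩

theorem ell1 (k0 : 0 ≤ κ) (d0 : 0 < δ) (d1 : δ ≤ 1) {a b : Fin 5} (ha : a ∈ s) (hb : b ∈ s)
    {J : List (Fin 5)} (hJ : J.length + 1 = m) :
    Φ.B.nsq (w * c a * c b) (Φ.X b (Φ.X a (f J))) ≤
      Φ.B.bil (w * c a * c b) (Φ.X a (Φ.X a (f J))) (Φ.X b (Φ.X b (f J))) +
      4 * ((1 + 2 * κ) * (δ⁻¹ * Φ.B.J (V * lo) + δ * Φ.B.J (w * Φ.lv (m + 1) f))) := by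
  have hw : w * c a * c b ∈ Φ.B.K := Φ.B.K.mul_mem_right _ (Φ.B.K.mul_mem_right _ h.wt.K)
  have t := Ibp.Is.four (h.is.sk a) (h.is.sk b) hw (f J)
  have k := fun d => (h.is.sk d).dv.K_D _ hw
  have u : ∀ {x : Φ.B.Pt} {p q P Q : ℝ}, p ^ 2 ≤ P → q ^ 2 ≤ Q → (p * q) ^ 2 ≤ P * Q :=
    fun e1 e2 => by rw [mul_pow]; exact mul_le_mul e1 e2 (sq_nonneg _) ((sq_nonneg _).trans e1)
  have p1 := h.pair k0 d0 d1 (k b) (h.e1 · a ha b hb b hb) fun x z =>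
    u (x := x) (h.one z a hJ) (h.two z a b hJ)
  have p2 := h.pair k0 d0 d1 (k a) (h.e1 · a ha b hb a ha) fun x z =>
    u (x := x) (h.one z a hJ) (h.two z b b hJ)
  have p3 := h.pair k0 d0 d1 hw (h.e0 · a ha b hb) (p := Φ.X a (f J))
    (q := Φ.X a (Φ.X b (Φ.X b (f J))) - Φ.X b (Φ.X a (Φ.X b (f J)))) fun x z => by
      obtain ⟨d, e⟩ := h.md_cm x a b
      exact u (x := x) (h.one z a hJ) ((e _).trans (h.two z d b hJ))
  have p4 := h.pair k0 d0 d1 hw (h.e0 · a ha b hb) (p := Φ.X b (Φ.X a (f J)))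
    (q := Φ.X a (Φ.X b (f J)) - Φ.X b (Φ.X a (f J))) fun x z => by
      obtain ⟨d, e⟩ := h.md_cm x a b
      rw [mul_comm (Φ.B.md x _)]
      exact u (x := x) ((e _).trans (h.one z d hJ)) (h.two z b a hJ)
  rw [bil_sub_r] at p4
  rw [abs_le] at *
  rw [nsq]
  linarith [p1.1, p2.2, p3.2, p4.1]

theorem ell (k0 : 0 ≤ κ) (d0 : 0 < δ) (d1 : δ ≤ 1) {J : List (Fin 5)} (hJ : J.length + 1 = m) :
    ∑ a ∈ s, ∑ b ∈ s, Φ.B.nsq (w * c a * c b) (Φ.X b (Φ.X a (f J))) ≤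
      Φ.B.nsq w (∑ a ∈ s, c a * Φ.X a (Φ.X a (f J))) +
      100 * ((1 + 2 * κ) * (δ⁻¹ * Φ.B.J (V * lo) + δ * Φ.B.J (w * Φ.lv (m + 1) f))) := by
  have e : Φ.B.nsq w (∑ a ∈ s, c a * Φ.X a (Φ.X a (f J))) = ∑ a ∈ s, ∑ b ∈ s,
      Φ.B.bil (w * c a * c b) (Φ.X a (Φ.X a (f J))) (Φ.X b (Φ.X b (f J))) := by
    rw [nsq, bil_sum_l]
    refine sum_congr rfl fun a _ => ?_
    rw [bil_sum_r]
    exact sum_congr rfl fun b _ => by rw [bil_mul_l, bil_re_r (h.rc b)]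
  have k1 := sum_le_sum fun a ha => sum_le_sum fun b hb => h.ell1 k0 d0 d1 ha hb hJ
  have k3 : (s.card : ℝ) ≤ 5 := by exact_mod_cast (card_le_univ s).trans (by simp)
  have k4 : 0 ≤ (1 + 2 * κ) * (δ⁻¹ * Φ.B.J (V * lo) + δ * Φ.B.J (w * Φ.lv (m + 1) f)) := by
    have := h.lo_nonneg
    have := h.tp_nonneg
    positivity
  simp only [sum_add_distrib, sum_const, nsmul_eq_mul] at k1
  have k5 : (s.card : ℝ) * s.card ≤ 25 := by nlinarith [Nat.cast_nonneg (α := ℝ) s.card]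
  rw [e]
  nlinarith [mul_le_mul_of_nonneg_right k5 k4]

theorem term {a b : Fin 5} (ha : a ∈ s) (hb : b ∈ s) (u : A) :
    c0 * Φ.B.nsq w u ≤ Φ.B.nsq (w * c a * c b) u := by
  rw [← nsq_rl_w]
  exact h.is.B.nsq_mono (Φ.B.K.mul_mem_left _ h.wt.K) ((h.is.B.re_rl _).mul h.wt.re)
    (Φ.B.K.mul_mem_right _ (Φ.B.K.mul_mem_right _ h.wt.K)) ((h.wt.re.mul (h.rc a)).mul (h.rc b))
    _ _ fun x => by
      rw [h.is.B.val_mul (h.is.B.re_rl _), h.is.B.val_rl]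
      exact mul_le_mul_of_nonneg_right (h.e2 x a ha b hb) (sq_nonneg _)

theorem src {J : List (Fin 5)} (hJ : J.length + 1 = m) (k0 : 0 ≤ κ) :
    Φ.B.nsq w (∑ a ∈ s, c a * Φ.X a (Φ.X a (f J))) ≤
      κ * (∑ a ∈ sᶜ, ∑ b, Φ.B.nsq w (Φ.X a (Φ.X b (f J))) + Φ.B.J (V * lo) +
        δ * Φ.B.J (w * Φ.lv (m + 1) f)) +
      2⁻¹ * ∑ a ∈ s, ∑ b ∈ s, Φ.B.nsq (w * c a * c b) (Φ.X b (Φ.X a (f J))) := by
  have k := h.is.B
  simp only [nsq, bil]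
  simp only [← J_sum]
  rw [← J_rl, ← J_add, ← J_add, ← J_rl, ← J_rl, ← J_add]
  refine k.J_le (Φ.B.K.mul_mem_right _ h.wt.K) (Φ.B.K.add_mem (Φ.B.K.mul_mem_left _
    (Φ.B.K.add_mem (Φ.B.K.add_mem
    (Φ.B.K.sum_mem fun _ _ => Φ.B.K.sum_mem fun _ _ => Φ.B.K.mul_mem_right _ h.wt.K)
    (Φ.B.K.mul_mem_right _ h.Vt.K)) (Φ.B.K.mul_mem_left _ (Φ.B.K.mul_mem_right _ h.wt.K))))
    (Φ.B.K.mul_mem_left _ (Φ.B.K.sum_mem fun _ _ => Φ.B.K.sum_mem fun _ _ =>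
      Φ.B.K.mul_mem_right _ (Φ.B.K.mul_mem_right _ (Φ.B.K.mul_mem_right _ h.wt.K))))) fun x => ?_
  rw [val_add, k.val_mul (k.re_rl _), k.val_mul (k.re_rl _), val_add, val_add,
    k.val_mul (k.re_rl _), k.val_rl, k.val_rl, k.val_rl]
  simp only [val_sum, k.val_nsq h.wt.re, k.val_nsq ((h.wt.re.mul (h.rc _)).mul (h.rc _))]
  simp only [mul_assoc w, k.val_mul h.wt.re, mul_assoc (Φ.B.val x w), ← mul_sum]
  rw [k.val_mul h.Vt.re]
  by_cases z : Φ.B.val x V = 0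
  · rw [h.w0 z, z]; simp
  have a1 := mul_le_mul_of_nonneg_left (h.h5 x z J hJ) (h.wt.pos x)
  have a2 := mul_le_mul_of_nonneg_left (mul_le_mul_of_nonneg_right (h.le x) (h.lpos x)) k0
  nlinarith

theorem ell2 (k0 : 0 ≤ κ) (c1 : 0 ≤ c0) (d0 : 0 < δ) (d1 : δ ≤ 1) {a b : Fin 5} (ha : a ∈ s)
    (hb : b ∈ s) {J : List (Fin 5)} (hJ : J.length + 1 = m) :
    c0 * Φ.B.nsq w (Φ.X b (Φ.X a (f J))) ≤
      2 * (κ * (∑ a ∈ sᶜ, ∑ b, Φ.B.nsq w (Φ.X a (Φ.X b (f J))) + Φ.B.J (V * lo) +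
        δ * Φ.B.J (w * Φ.lv (m + 1) f))) +
      200 * ((1 + 2 * κ) * (δ⁻¹ * Φ.B.J (V * lo) + δ * Φ.B.J (w * Φ.lv (m + 1) f))) := by
  have p := fun a ha b hb => (mul_nonneg c1 (h.is.B.nsq_nonneg h.wt _)).trans
    (h.term (a := a) (b := b) ha hb (Φ.X b (Φ.X a (f J))))
  have k2 := (single_le_sum (p a ha) hb).trans (single_le_sum (f := fun a => ∑ b ∈ s,
    Φ.B.nsq (w * c a * c b) (Φ.X b (Φ.X a (f J)))) (fun a ha => sum_nonneg (p a ha)) ha)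
  linarith [h.term ha hb (Φ.X b (Φ.X a (f J))), h.ell k0 d0 d1 hJ, h.src hJ k0]

end Hyp

end Vale.Agent.P354PE
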