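import Vale.Agent.P354XT.Defs

/-!
The elliptic estimates for the family of jets: exact statements.
-/

open scoped ContDiff
open Set

namespace Vale.Agent.P354PE

open Vale.Agent.P354XT
open Vale.Agent.P354BF (rp)

/-- ELA, the angular estimate, for any weight, down to the inner end of the box: the level m + 1
from the first jets of the words R^j W, the level m and the errors. -/
def ELA : Prop :=
  ∀ (M0 a0 rm R0 Cf s : ℝ) (n k : ℕ), 0 ≤ rm → 1 ≤ n → ∃ C eps : ℝ, 0 < C ∧ 0 < eps ∧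
    ∀ M a rI R1 e : ℝ, |M - M0| < 1 → |a - a0| < 1 → 3 * R0 ≤ 4 * R1 → e ≤ eps →
    ∀ (A : Type) [CommRing A] [Algebra ℂ A] (Φ : Fld A) (D : Dat A), Φ.Is → Φ.s = s →
      Fam Φ D M a n k Cf rm rI R0 R1 e → ∀ m ≤ n + k, ∀ φ : ℝ × ℝ → ℝ, ContDiff ℝ ∞ φ →
      (∀ p, 0 ≤ φ p) → (∀ p, p ∉ Icc D.t1 (D.t1 + D.K + 2) ×ˢ Icc D.r00 (3 * R0) → φ p = 0) →
      Φ.B.J (Φ.fn φ * Φ.lv (m + 1) D.f) ≤
        C * (∑ j ∈ Finset.range (m + 1), ∑ W ∈ yw (m - j),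
            Φ.B.J (Φ.fn φ * Φ.jq 1 (D.f (List.replicate j 1 ++ W))) +
          Φ.B.J (Φ.fn φ * Φ.lv m D.f) + Φ.B.J (Φ.fn φ * D.rho))

/-- ELB, outside of the horizon: the level m + 1 from the first jets of the words in T and the
axial field; only the lower level and the errors need the larger weight ψ. -/
def ELB : Prop :=
  ∀ (M0 a0 rm r2 R0 Cf s : ℝ) (f : ℝ × ℝ × ℝ → ℝ) (n k : ℕ), |a0| < M0 → rp M0 a0 < r2 →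
    Continuous f → 1 ≤ n → ∃ C dl eps : ℝ, 0 < C ∧ 0 < dl ∧ 0 < eps ∧
    ∀ M a rI R1 e : ℝ, |M - M0| < dl → |a - a0| < dl → rI ≤ r2 → 3 * R0 ≤ 4 * R1 → e ≤ eps →
    ∀ (A : Type) [CommRing A] [Algebra ℂ A] (Φ : Fld A) (D : Dat A), Φ.Is → Φ.s = s →
      (Φ.f = fun r => f (M, a, r)) → Fam Φ D M a n k Cf rm rI R0 R1 e → ∀ m ≤ n + k,
      ∀ φ ψ : ℝ × ℝ → ℝ, ContDiff ℝ ∞ φ → ContDiff ℝ ∞ ψ → (∀ p, 0 ≤ φ p ∧ φ p ≤ ψ p) →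
      (∀ p, fderiv ℝ φ p (1, 0) ^ 2 ≤ φ p * ψ p ∧ fderiv ℝ φ p (0, 1) ^ 2 ≤ φ p * ψ p) →
      (∀ p, p ∉ Icc D.t1 (D.t1 + D.K + 2) ×ˢ Icc r2 (3 * R0) → ψ p = 0) →
      Φ.B.J (Φ.fn φ * Φ.lv (m + 1) D.f) ≤
        C * (∑ W ∈ yw m, Φ.B.J (Φ.fn φ * Φ.jq 1 (D.f W)) +
          Φ.B.J (Φ.fn ψ * Φ.lv m D.f) + Φ.B.J (Φ.fn ψ * D.rho))

end Vale.Agent.P354PE
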