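import Vale.Agent.P354PE.Main

/-!
The elliptic estimate ELB outside of the horizon.
-/

open scoped ContDiff

namespace Vale.Agent.P354PE

open Vale.Agent.P354XG (Der D_mul D_add D_sub D_num D_one)
open Vale.Agent.P354XT Vale.Agent.P354XI Vale.Agent.P354XI.Ibp Finset
open Vale.Agent.P354BF (rp De)

variable {A : Type} [CommRing A] [Algebra ℂ A] {Φ : Fld A}

/-- Delta is bounded below outside of the horizon. -/
theorem De_ge {M0 a0 r2 : ℝ} (h : |a0| < M0) (h2 : rp M0 a0 < r2) :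
    ∃ c dl : ℝ, 0 < c ∧ c ≤ 1 ∧ 0 < dl ∧ dl ≤ 1 ∧ 0 < r2 ∧ ∀ M a, |M - M0| < dl → |a - a0| < dl →
      ∀ r, r2 ≤ r → c ≤ De M a r := by
  have h0 : 0 ≤ M0 ^ 2 - a0 ^ 2 := by nlinarith [sq_abs a0, abs_nonneg a0]
  have h1 := Real.sq_sqrt h0
  have h3 := Real.sqrt_nonneg (M0 ^ 2 - a0 ^ 2)
  rw [rp] at h2
  have h4 : 0 < De M0 a0 r2 := by rw [De]; nlinarith
  have c : Continuous fun p : ℝ × ℝ => De p.1 p.2 r2 := by unfold De; fun_prop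
  obtain ⟨d, d0, hd⟩ := Metric.eventually_nhds_iff.1
    ((c.continuousAt (x := (M0, a0))).eventually (lt_mem_nhds (half_lt_self h4)))
  refine ⟨min 1 (De M0 a0 r2 / 2), min (min 1 d) (r2 - M0), by positivity, min_le_left _ _,
    lt_min (by positivity) (by linarith), (min_le_left _ _).trans (min_le_left _ _),
    by linarith [abs_nonneg a0], fun M a hM ha r hr => (min_le_right _ _).trans ?_⟩
  simp only [lt_min_iff] at hM ha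
  have k := hd (y := (M, a)) (max_lt hM.1.2 ha.1.2)
  have k2 : M < r2 := by linarith [le_abs_self (M - M0), hM.2]
  simp only [De] at k ⊢
  nlinarith [mul_nonneg (sub_nonneg.2 hr) (show 0 ≤ r + r2 - 2 * M by linarith)]

theorem re_De (h : Φ.Is) (M a : ℝ) : Φ.B.Re (Φ.De M a) :=
  ((h.re_r.mul h.re_r).sub ((h.B.re_rl _).mul h.re_r)).add (h.B.re_rl _)

theorem val_De (h : Φ.Is) (x : Φ.B.Pt) (M a : ℝ) :
    Φ.B.val x (Φ.De M a) = De M a (Φ.pr x).2 := by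
  rw [Fld.De, val_add, val_sub, h.B.val_mul h.re_r, h.B.val_mul (h.B.re_rl _), h.val_r,
    h.B.val_rl, h.B.val_rl, De, sq (Φ.pr x).2]

theorem md_dDe (h : Φ.Is) {x : Φ.B.Pt} {k M a : ℝ} (hr : |(Φ.pr x).2| ≤ k) (hM : |M| ≤ k) :
    ∀ d : Fin 5, d ≠ 0 → Φ.B.md x (Φ.X d (Φ.De M a)) ≤ 4 * k := by
  have r1 := (md_r h x).le.trans hr
  have m1 : Φ.B.md x (rl A (2 * M)) ≤ 2 * k := (h.B.md_rl x _).le.trans (ab (by simp) hM)
  have z : ∀ i, Φ.B.md x (Φ.L i (Φ.De M a)) ≤ 4 * k := fun i => by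
    simp only [Fld.De, D_add, D_sub, D_mul, D_rl, h.L_r, mul_zero, add_zero, sub_zero, md_zero]
    linarith [abs_nonneg M]
  refine fin5 (fun hd => absurd rfl hd) (fun _ => ?_) (fun _ => z 0) (fun _ => z 1) fun _ => z 2
  simp only [Fld.X1, Fld.De, D_add, D_sub, D_mul, D_rl, h.R_r, mul_zero, add_zero, mul_one]
  linarith [sb (ad r1 r1) m1]

/-- The coefficients. -/
noncomputable def cf (Φ : Fld A) (M a : ℝ) (d : Fin 5) : A := if d = 1 then Φ.De M a else 1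

/-- The estimate outside of the horizon, for a set S of letters. -/
theorem ext {S : Finset (Fin 5)} (s0 : 0 ∉ S) {M0 a0 r2 c1 dl : ℝ} (rm R0 Cf s : ℝ)
    {f : ℝ × ℝ × ℝ → ℝ} {n : ℕ} (k : ℕ) (c0 : 0 < c1) (c2 : c1 ≤ 1) (l1 : dl ≤ 1) (r0 : 0 < r2)
    (hD : ∀ M a, |M - M0| < dl → |a - a0| < dl → ∀ r, r2 ≤ r → c1 ≤ De M a r)
    (ct : Continuous f) (n1 : 1 ≤ n)
    (E3 : ∀ M a, |M - M0| < dl → |a - a0| < dl → ∀ (A : Type) [CommRing A] [Algebra ℂ A]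
      (Φ : Fld A), Φ.Is → ∀ x b u y, 1 ≤ b → |a| ≤ b → r2 ≤ (Φ.pr x).2 → 0 ≤ y →
      (∀ d ∉ S, ∀ d', Φ.B.md x (Φ.X d (Φ.X d' u)) ≤ y) → Φ.B.md x (Sp Φ M a u) ≤ 93 * b ^ 2 * y →
      Φ.B.md x (∑ d ∈ S, cf Φ M a d * Φ.X d (Φ.X d u)) ^ 2 ≤ (200 * b ^ 2) ^ 2 * y ^ 2 +
        (∑ d ∈ S, ∑ d' ∈ S, Φ.B.val x (cf Φ M a d * cf Φ M a d') *
          Φ.B.md x (Φ.X d' (Φ.X d u)) ^ 2) / 2) :
    ∃ C eps : ℝ, 0 < C ∧ 0 < eps ∧
    ∀ M a rI R1 e : ℝ, |M - M0| < dl → |a - a0| < dl → rI ≤ r2 → 3 * R0 ≤ 4 * R1 → e ≤ eps →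
    ∀ (A : Type) [CommRing A] [Algebra ℂ A] (Φ : Fld A) (D : Dat A), Φ.Is → Φ.s = s →
      (Φ.f = fun r => f (M, a, r)) → Fam Φ D M a n k Cf rm rI R0 R1 e → ∀ m ≤ n + k,
      ∀ φ ψ : ℝ × ℝ → ℝ, ContDiff ℝ ∞ φ → ContDiff ℝ ∞ ψ → (∀ p, 0 ≤ φ p ∧ φ p ≤ ψ p) →
      (∀ p, fderiv ℝ φ p (1, 0) ^ 2 ≤ φ p * ψ p ∧ fderiv ℝ φ p (0, 1) ^ 2 ≤ φ p * ψ p) →
      (∀ p, p ∉ Set.Icc D.t1 (D.t1 + D.K + 2) ×ˢ Set.Icc r2 (3 * R0) → ψ p = 0) →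
      ∀ Y, (Φ.B.Wt (Φ.fn φ) → 0 ≤ Y ∧ ∀ J : List (Fin 5), J.length = m → J.countP (· ∈ S) = 0 →
        ∃ W, J.Perm W ∧ Φ.B.J (Φ.fn φ * Φ.jq 1 (D.f W)) ≤ Y) →
      Φ.B.J (Φ.fn φ * Φ.lv (m + 1) D.f) ≤
        C * (Y + Φ.B.J (Φ.fn ψ * Φ.lv m D.f) + Φ.B.J (Φ.fn ψ * D.rho)) := by
  obtain ⟨Cb, hCb⟩ := ((isCompact_Icc (a := M0 - 1) (b := M0 + 1)).prod
    ((isCompact_Icc (a := a0 - 1) (b := a0 + 1)).prod
      (isCompact_Icc (a := r2) (b := 3 * R0)))).exists_bound_of_continuousOn ct.continuousOn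
  obtain ⟨b, hb⟩ : ∃ b, b = 1 + |M0| + |a0| + |s| + 3 * |R0| + |Cb| := ⟨_, rfl⟩
  have p1 := abs_nonneg M0
  have p2 := abs_nonneg a0
  have p3 := abs_nonneg s
  have p4 := abs_nonneg R0
  have p5 := abs_nonneg Cb
  have b1 : 1 ≤ b := by linarith
  have b3 : b ^ 2 ≤ b ^ 5 := pow_le_pow_right₀ b1 (by norm_num)
  have b4 : 1 ≤ b ^ 2 := one_le_pow₀ b1
  have b2 : 1 ≤ (200 * b ^ 5) ^ 2 := one_le_pow₀ (by linarith)
  choose C δ hC hδ d1 H using core b2 (mul_pos c0 c0) (mul_le_one₀ c2 c0.le c2)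
  obtain ⟨C1, c5⟩ := (range (n + k + 1)).finite_toSet.image C |>.bddAbove
  obtain ⟨j0, -, c6⟩ := exists_min_image (range (n + k + 1)) δ ⟨0, by simp⟩
  have c3 : ∀ m ≤ n + k, C m ≤ C1 := fun m hm => c5 ⟨m, by simp; omega, rfl⟩
  have c4 := (hC 0).trans_le (c3 0 (by omega))
  refine ⟨C1 * (1 + |Cf|), δ j0, by positivity, hδ j0, ?_⟩
  intro M a rI R1 e hM ha hI hR he A _ _ Φ D h hs hf F m hm φ ψ sφ sψ pφ dφ oψ Y hY
  have i0 : D.r00 ≤ r2 := by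
    refine le_trans (not_lt.1 fun q => ?_) hI
    exact zero_ne_one ((F.ch0 _ q.le).symm.trans (F.ch1 _ le_rfl))
  have o2 : ∀ p, p ∉ Set.Icc D.t1 (D.t1 + D.K + 2) ×ˢ Set.Icc D.r00 (3 * R0) → ψ p = 0 :=
    fun p q => oψ p fun q' => q ⟨q'.1, i0.trans q'.2.1, q'.2.2⟩
  have wt := wt_fn h F sφ (fun p => (pφ p).1) hR fun p q =>
    le_antisymm ((pφ p).2.trans (o2 p q).le) (pφ p).1
  have Vt := wt_fn h F sψ (fun p => (pφ p).1.trans (pφ p).2) hR o2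
  obtain ⟨z0, hS⟩ := hY wt
  have ne : ∀ d ∈ S, d ≠ 0 := fun d hd e => s0 (e ▸ hd)
  have aM : |M| ≤ b := by linarith [near (hM.trans_le l1)]
  have aa : |a| ≤ b := by linarith [near (ha.trans_le l1)]
  have bx : ∀ x, ψ (Φ.pr x) ≠ 0 → |(Φ.pr x).2| ≤ b ∧ |Φ.f (Φ.pr x).2| ≤ b ∧ r2 ≤ (Φ.pr x).2 ∧
      Φ.pr x ∈ Set.Icc D.t1 (D.t1 + D.K + 2) ×ˢ Set.Icc D.r00 (3 * R0) := fun x z => by
    have q : Φ.pr x ∈ _ := by_contra fun q => z (oψ _ q)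
    obtain ⟨u1, u2⟩ := abs_lt.1 (hM.trans_le l1)
    obtain ⟨u3, u4⟩ := abs_lt.1 (ha.trans_le l1)
    have u5 := hCb (M, a, (Φ.pr x).2) ⟨⟨by linarith, by linarith⟩, ⟨by linarith, by linarith⟩, q.2⟩
    exact ⟨abs_le.2 ⟨by linarith [q.2.1], by linarith [q.2.2, le_abs_self R0]⟩,
      by rw [hf]; exact u5.trans (by linarith [le_abs_self Cb]), q.2.1, q.1, i0.trans q.2.1, q.2.2⟩
  obtain ⟨c, hc⟩ : ∃ c : Fin 5 → A, c = cf Φ M a := ⟨_, rfl⟩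
  have rc : ∀ d, Φ.B.Re (c d) := fun d => by
    rw [hc, cf]; split_ifs; exacts [re_De h M a, re_one]
  have cc : ∀ x, ψ (Φ.pr x) ≠ 0 → ∀ d, c1 ≤ Φ.B.val x (c d) ∧ Φ.B.md x (c d) ≤ 4 * b ^ 2 ∧
      ∀ d', d' ≠ 0 → Φ.B.md x (Φ.X d' (c d)) ≤ 4 * b := fun x z d => by
    rw [hc, cf]; split_ifs
    · exact ⟨by rw [val_De h]; exact hD M a hM ha _ (bx x z).2.2.1, md_De h (bx x z).1 aM aa,
        md_dDe h (bx x z).1 aM⟩
    · exact ⟨by rwa [val_one], md_one.trans (by linarith), fun d' _ => by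
        rw [D_one, md_zero]; linarith⟩
  have q0 : ∀ p, 0 ≤ φ p * ψ p := fun p => mul_nonneg (pφ p).1 ((pφ p).1.trans (pφ p).2)
  have w0 : ∀ x, Φ.B.md x (Φ.fn φ) ≤ √(φ (Φ.pr x) * ψ (Φ.pr x)) := fun x => by
    rw [h.B.md_re wt.re, val_fn h sφ]
    exact Real.abs_le_sqrt (by nlinarith [pφ (Φ.pr x)])
  have w1 : ∀ x d, d ≠ 0 → Φ.B.md x (Φ.X d (Φ.fn φ)) ≤
      (|Φ.f (Φ.pr x).2| + 1) * √(φ (Φ.pr x) * ψ (Φ.pr x)) := fun x => by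
    have z : ∀ i, Φ.B.md x (Φ.L i (Φ.fn φ)) ≤
        (|Φ.f (Φ.pr x).2| + 1) * √(φ (Φ.pr x) * ψ (Φ.pr x)) := fun i => by
      rw [h.Lf φ sφ, md_zero]; positivity
    refine fin5 (fun hd => absurd rfl hd) (fun _ => ?_) (fun _ => z 0) (fun _ => z 1) fun _ => z 2
    · have sm : ContDiff ℝ ∞ fun p : ℝ × ℝ => fderiv ℝ φ p (-Φ.f p.2, 1) :=
        (sφ.fderiv_right (m := ∞) le_rfl).clm_apply
          ((h.sf.comp contDiff_snd).neg.prodMk contDiff_const)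
      rw [Fld.X1, h.Rf φ sφ, h.B.md_re (h.re _ sm), val_fn h sm,
        show (-Φ.f (Φ.pr x).2, (1 : ℝ)) = (-Φ.f (Φ.pr x).2) • ((1, 0) : ℝ × ℝ) + (0, 1) by simp,
        map_add, map_smul, smul_eq_mul, add_mul, one_mul]
      exact (abs_add_le _ _).trans (add_le_add (ab (abs_neg _).le (Real.abs_le_sqrt (dφ _).1))
        (Real.abs_le_sqrt (dφ _).2))
  have fin : ∀ x {g : A}, Φ.B.md x g ≤ 200 * b ^ 5 * √(φ (Φ.pr x) * ψ (Φ.pr x)) →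
      Φ.B.md x g ^ 2 ≤ (200 * b ^ 5) ^ 2 * (Φ.B.val x (Φ.fn φ) * Φ.B.val x (Φ.fn ψ)) :=
    fun x g e => by
      rw [val_fn h sφ, val_fn h sψ, ← Real.sq_sqrt (q0 (Φ.pr x)), ← mul_pow]
      exact pow_le_pow_left₀ (md_nonneg _ _) e 2
  have b5 : b ^ 4 ≤ b ^ 5 := pow_le_pow_right₀ b1 (by norm_num)
  have b6 : b ^ 3 ≤ b ^ 5 := pow_le_pow_right₀ b1 (by norm_num)
  have hy := hyp h F (s := S) (c := c) (c0 := c1 * c1) (κ := (200 * b ^ 5) ^ 2) n1 hm hR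
    b1 aM aa (by rw [hs]; linarith) (d1 m) (he.trans (c6 m (by simp; omega)))
    s0 wt Vt (fun x => by rw [val_fn h sφ, val_fn h sψ]; exact (pφ _).2) rc
    (fun x z => by rw [val_fn h sψ] at z; exact ⟨(bx x z).1, (bx x z).2.2.2⟩)
    (fun x d _ d' _ => fin x (by
      have u := w0 x
      by_cases z : ψ (Φ.pr x) = 0
      · rw [z, mul_zero, Real.sqrt_zero] at u ⊢
        rw [md_mul, md_mul, le_antisymm u (md_nonneg _ _)]
        simp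
      · refine (mu (mu u (cc x z d).2.1) (cc x z d').2.1).trans ?_
        nlinarith [mul_le_mul_of_nonneg_right b5 (Real.sqrt_nonneg (φ (Φ.pr x) * ψ (Φ.pr x))),
          mul_nonneg (show 0 ≤ b ^ 5 by linarith) (Real.sqrt_nonneg (φ (Φ.pr x) * ψ (Φ.pr x)))]))
    (fun x d _ d' _ g hg => fin x (by
      have u := w0 x
      have u' := w1 x g (ne g hg)
      rw [D_mul, D_mul]
      by_cases z : ψ (Φ.pr x) = 0
      · rw [z, mul_zero, Real.sqrt_zero] at u u' ⊢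
        rw [mul_zero] at u'
        simpa using ad (mu (mu u le_rfl) le_rfl) (mu le_rfl (ad (mu u le_rfl) (mu le_rfl u')))
      · have u'' := u'.trans (mul_le_mul_of_nonneg_right (show _ ≤ 2 * b by
          linarith [(bx x z).2.1]) (Real.sqrt_nonneg _))
        refine (ad (mu (mu u (cc x z d).2.1) ((cc x z d').2.2 g (ne g hg))) (mu (cc x z d').2.1
          (ad (mu u ((cc x z d).2.2 g (ne g hg))) (mu (cc x z d).2.1 u'')))).trans ?_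
        nlinarith [mul_le_mul_of_nonneg_right b6 (Real.sqrt_nonneg (φ (Φ.pr x) * ψ (Φ.pr x))),
          mul_nonneg (show 0 ≤ b ^ 5 by linarith) (Real.sqrt_nonneg (φ (Φ.pr x) * ψ (Φ.pr x)))]))
    (fun x d _ d' _ => by
      rw [mul_assoc (Φ.fn φ), h.B.val_mul wt.re, h.B.val_mul (rc d), mul_comm]
      by_cases z : ψ (Φ.pr x) = 0
      · rw [val_fn h sφ, le_antisymm ((pφ _).2.trans z.le) (pφ _).1, zero_mul, zero_mul]
      · exact mul_le_mul_of_nonneg_left (mul_le_mul (cc x z d).1 (cc x z d').1 c0.le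
          (c0.le.trans (cc x z d).1)) (wt.pos x))
    fun x z u y y0 u0 u1 => by
      rw [val_fn h sψ] at z
      rw [hc]
      exact (E3 M a hM ha A Φ h x b u y b1 aa (bx x z).2.2.1 y0 u0 u1).trans (by gcongr)
  exact low_le h F Vt c4 z0 ((H m A Φ _ _ _ _ _ _ hy _ z0 hS).trans
    (mul_le_mul_of_nonneg_right (c3 m hm) (add_nonneg z0 hy.lo_nonneg)))

theorem cf_pos (h : Φ.Is) {x : Φ.B.Pt} {M a : ℝ} (p : 0 ≤ De M a (Φ.pr x).2) (d d' : Fin 5) :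
    0 ≤ Φ.B.val x (cf Φ M a d * cf Φ M a d') := by
  unfold cf
  split_ifs <;> simp only [mul_one, one_mul, h.B.val_mul (re_De h M a), val_De h, val_one] <;>
    positivity

/-- ELB. -/
theorem elb : ELB := by
  intro M0 a0 rm r2 R0 Cf s f n k h0 h2 ct n1
  obtain ⟨c1, dl, c0, c2, l0, l1, r0, hD⟩ := De_ge h0 h2
  obtain ⟨C, eps, hC, he, H⟩ := ext (S := {1, 2, 3}) (by decide) rm R0 Cf s k c0 c2 l1 r0 hD ct n1
    fun M a hM ha A _ _ Φ h x b u y b1 aa hr y0 u0 u1 => fin3 (by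
      have e : ∑ d ∈ ({1, 2, 3} : Finset (Fin 5)), cf Φ M a d * Φ.X d (Φ.X d u) =
          Sp Φ M a u - Φ.X 4 (Φ.X 4 u) - rl A (2 * a) * Φ.X 4 (Φ.X 1 u) := by
        rw [sum_insert (by decide), sum_pair (by decide), Sp, cf, cf, cf, if_pos rfl,
          if_neg (by decide), if_neg (by decide)]
        ring
      rw [e]
      refine (sb (sb u1 (u0 4 (by decide) 4)) (mu (md_2a h x aa) (u0 4 (by decide) 1))).trans ?_
      have k2 : b ≤ b ^ 2 := le_self_pow₀ b1 two_ne_zero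
      nlinarith [mul_le_mul_of_nonneg_right k2 y0, mul_le_mul_of_nonneg_right (b1.trans k2) y0])
      fun d _ d' _ => cf_pos h (c0.le.trans (hD M a hM ha _ hr)) d d'
  refine ⟨C, dl, eps, hC, l0, he, fun M a rI R1 e hM ha hI hR he A _ _ Φ D h hs hf F m hm φ ψ sφ
    sψ pφ dφ oψ => H M a rI R1 e hM ha hI hR he A Φ D h hs hf F m hm φ ψ sφ sψ pφ dφ oψ _
    fun wt => ⟨sum_nonneg fun W _ => jq_nonneg h wt _, fun J l c => ⟨J, .refl _,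
      single_le_sum (f := fun W => Φ.B.J (Φ.fn φ * Φ.jq 1 (D.f W)))
        (fun W _ => jq_nonneg h wt _) (mem_yw.2 ⟨l, fun d hd => ?_⟩)⟩⟩⟩
  have q5 := List.countP_eq_zero.1 c d hd
  revert q5
  clear hd
  revert d
  decide

end Vale.Agent.P354PE
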