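import Vale.Agent.P354PE.Core

/-!
The induction on the number of letters in s.
-/

namespace Vale.Agent.P354PE

open Vale.Agent.P354XT Vale.Agent.P354XI Vale.Agent.P354XI.Ibp Finset

variable {A : Type} [CommRing A] [Algebra ℂ A]

namespace Hyp
variable {Φ : Fld A} {s : Finset (Fin 5)} {c : Fin 5 → A} {f : List (Fin 5) → A} {w V lo : A}
  {m : ℕ} {κ c0 δ : ℝ} (h : Hyp Φ s c f w V lo m κ c0 δ)
include h

/-- One more letter of s. -/
theorem step (k1 : 1 ≤ κ) (c1 : 0 < c0) (c2 : c0 ≤ 1) (d0 : 0 < δ) (d1 : δ ≤ 1) {Z t : ℝ}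
    (t1 : 1 ≤ t) (hZ : δ⁻¹ * Φ.B.J (V * lo) + δ * Φ.B.J (w * Φ.lv (m + 1) f) ≤ Z) {i : ℕ}
    (ih : ∀ J : List (Fin 5), J.length = m + 1 → J.countP (· ∈ s) ≤ i + 1 →
      Φ.B.nsq w (f J) ≤ t * Z) {J : List (Fin 5)} (hJ : J.length = m + 1)
    (e : J.countP (· ∈ s) = i + 2) :
    Φ.B.nsq w (f J) ≤ 4000 * κ * ((m : ℝ) + 1) ^ 4 / c0 * t * Z := by
  obtain ⟨b, J1, hb, p1, n1⟩ := pick (P := (· ∈ s)) (J := J) (by omega)
  obtain ⟨a, J2, ha, p2, n2⟩ := pick (P := (· ∈ s)) (J := J1) (by omega)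
  have l1 := p1.length_eq
  have l2 := p2.length_eq
  have l3 : J2.length + 1 = m := by simp at l1 l2; omega
  have z1 := h.lo_nonneg
  have z2 := mul_nonneg d0.le h.tp_nonneg
  have z3 : Φ.B.J (V * lo) ≤ δ⁻¹ * Φ.B.J (V * lo) :=
    le_mul_of_one_le_left z1 ((one_le_inv₀ d0).2 d1)
  have z4 : 0 ≤ Z := by linarith
  have z5 : Z ≤ t * Z := le_mul_of_one_le_left z4 t1
  have q1 := h.perm (p1.trans (p2.cons b)) hJ
  have q2 := h.close (p := f (b :: a :: J2)) (q := Φ.X b (Φ.X a (f J2))) (t := 1) fun x z => by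
    rw [← md_neg, neg_sub, one_mul]; exact h.h3 x z b a J2 l3
  have q3 := h.ell2 (by linarith) c1.le d0 d1 (by simpa using ha) (by simpa using hb) l3
  have q5 : ∀ a' ∈ sᶜ, ∀ b', Φ.B.nsq w (Φ.X a' (Φ.X b' (f J2))) ≤ 4 * (t * Z) :=
    fun a' ha' b' => by
      have u1 := h.close (q := f (a' :: b' :: J2)) (p := Φ.X a' (Φ.X b' (f J2))) (t := 1)
        fun x z => by rw [one_mul]; exact h.h3 x z a' b' J2 l3
      have u2 := ih (a' :: b' :: J2) (by simp; omega) (by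
        rw [List.countP_cons_of_neg (by simpa using ha'), List.countP_cons]
        split_ifs <;> omega)
      linarith
  have q6 : ∑ a' ∈ sᶜ, ∑ b', Φ.B.nsq w (Φ.X a' (Φ.X b' (f J2))) ≤ 100 * (t * Z) := by
    refine (sum_le_sum fun a' ha' => sum_le_sum fun b' _ => q5 a' ha' b').trans ?_
    have k3 : ((sᶜ).card : ℝ) ≤ 5 := by exact_mod_cast (card_le_univ _).trans (by simp)
    simp only [sum_const, nsmul_eq_mul, card_univ, Fintype.card_fin]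
    push_cast
    nlinarith
  have q7 : c0 * Φ.B.nsq w (Φ.X b (Φ.X a (f J2))) ≤ 802 * κ * (t * Z) := by
    have u1 := mul_le_mul_of_nonneg_left (show ∑ a' ∈ sᶜ, ∑ b',
      Φ.B.nsq w (Φ.X a' (Φ.X b' (f J2))) + Φ.B.J (V * lo) + δ * Φ.B.J (w * Φ.lv (m + 1) f) ≤
        101 * (t * Z) by linarith) (show 0 ≤ κ by linarith)
    have u2 := mul_le_mul (show 1 + 2 * κ ≤ 3 * κ by linarith) (hZ.trans z5) (by linarith)
      (by linarith)
    linarith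
  have m1 : (1 : ℝ) ≤ ((m : ℝ) + 1) ^ 4 := one_le_pow₀ (by simp)
  generalize ((m : ℝ) + 1) ^ 4 = μ at *
  have z6 : Φ.B.J (V * lo) ≤ t * Z := by linarith
  have z7 : 0 ≤ t * Z := by linarith
  rw [div_mul_eq_mul_div, div_mul_eq_mul_div, le_div_iff₀ c1, mul_assoc _ t]
  generalize t * Z = y at *
  have u1 : c0 * Φ.B.J (V * lo) ≤ y := (mul_le_of_le_one_left z1 c2).trans z6
  have u2 := mul_le_mul_of_nonneg_left q1 c1.le
  have u3 := mul_le_mul_of_nonneg_left q2 c1.le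
  have u4 := mul_le_mul_of_nonneg_left u1 (show 0 ≤ μ by linarith)
  have u5 : κ * y ≤ κ * μ * y := by nlinarith [mul_nonneg (show 0 ≤ κ by linarith) z7]
  have u6 : μ * y ≤ κ * μ * y := by nlinarith [mul_nonneg (show 0 ≤ μ by linarith) z7]
  have u7 : y ≤ κ * y := le_mul_of_one_le_left z7 k1
  nlinarith

/-- At most one letter of s. -/
theorem base {Y : ℝ} (hS : ∀ J : List (Fin 5), J.length = m → J.countP (· ∈ s) = 0 →
      ∃ W, J.Perm W ∧ Φ.B.J (w * Φ.jq 1 (f W)) ≤ Y)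
    {J : List (Fin 5)} (hJ : J.length = m + 1) (e : J.countP (· ∈ s) ≤ 1) :
    Φ.B.nsq w (f J) ≤ 4 * Y + 6 * ((m : ℝ) + 1) ^ 4 * Φ.B.J (V * lo) := by
  obtain ⟨b, J1, p1, n1⟩ : ∃ b J1, J.Perm (b :: J1) ∧ J1.countP (· ∈ s) = 0 := by
    rcases Nat.eq_zero_or_pos (J.countP (· ∈ s)) with z | z
    · obtain _ | ⟨b, J1⟩ := J
      · simp at hJ
      · exact ⟨b, J1, .refl _, by rw [List.countP_cons] at z; omega⟩
    · obtain ⟨b, J1, -, p1, n1⟩ := pick z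
      exact ⟨b, J1, p1, by omega⟩
  have l1 : J1.length = m := by have := p1.length_eq; simp at this; omega
  obtain ⟨W, p2, hW⟩ := hS J1 l1 n1
  have q1 := h.perm (p1.trans (p2.cons b)) hJ
  have q2 := h.close (p := f (b :: W)) (q := Φ.X b (f W)) (t := 1) fun x z => by
    rw [← md_neg, neg_sub, one_mul]; exact h.h2 x z b W (p2.length_eq.symm.trans l1).le
  have k := h.is.B
  have q3 : Φ.B.nsq w (Φ.X b (f W)) ≤ Φ.B.J (w * Φ.jq 1 (f W)) :=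
    k.J_le (Φ.B.K.mul_mem_right _ h.wt.K) (Φ.B.K.mul_mem_right _ h.wt.K) fun x => by
      rw [k.val_nsq h.wt.re, k.val_mul h.wt.re]
      exact mul_le_mul_of_nonneg_left (h.is.le_lv x (fun J => Φ.wd J (f W)) (J := [b]) le_rfl)
        (h.wt.pos x)
  have m1 : (1 : ℝ) ≤ ((m : ℝ) + 1) ^ 4 := one_le_pow₀ (by simp)
  nlinarith [h.lo_nonneg]

end Hyp

/-- The elliptic estimate. -/
theorem core {κ c0 : ℝ} (k1 : 1 ≤ κ) (c1 : 0 < c0) (c2 : c0 ≤ 1) (m : ℕ) :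
    ∃ C δ : ℝ, 0 < C ∧ 0 < δ ∧ δ ≤ 1 ∧ ∀ (A : Type) [CommRing A] [Algebra ℂ A] (Φ : Fld A) s c f
      w V lo, Hyp Φ s c f w V lo m κ c0 δ → ∀ Y : ℝ, 0 ≤ Y →
      (∀ J : List (Fin 5), J.length = m → J.countP (· ∈ s) = 0 →
        ∃ W, J.Perm W ∧ Φ.B.J (w * Φ.jq 1 (f W)) ≤ Y) →
      Φ.B.J (w * Φ.lv (m + 1) f) ≤ C * (Y + Φ.B.J (V * lo)) := by
  have m1 : (1 : ℝ) ≤ ((m : ℝ) + 1) ^ 4 := one_le_pow₀ (by simp)
  obtain ⟨α, hα⟩ : ∃ α, α = 4000 * κ * ((m : ℝ) + 1) ^ 4 / c0 := ⟨_, rfl⟩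
  have a1 : 6 * ((m : ℝ) + 1) ^ 4 ≤ α := by
    rw [hα, le_div_iff₀ c1]
    nlinarith [mul_le_of_le_one_right (show 0 ≤ ((m : ℝ) + 1) ^ 4 by positivity) c2]
  have a2 : 1 ≤ α := by linarith
  obtain ⟨N, hN⟩ : ∃ N : ℝ, N = ((words (m + 1)).card + 1) * α ^ (m + 2) := ⟨_, rfl⟩
  have a3 : 1 ≤ α ^ (m + 2) := one_le_pow₀ a2
  have n1 : 1 ≤ N := by rw [hN]; nlinarith [Nat.cast_nonneg (α := ℝ) (words (m + 1)).card]
  have d1 : (2 * N)⁻¹ ≤ 1 := inv_le_one_of_one_le₀ (by linarith)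
  refine ⟨4 * N ^ 2, (2 * N)⁻¹, by positivity, by positivity, d1,
    fun A _ _ Φ s c f w V lo h Y z3 hS => ?_⟩
  have z1 := h.lo_nonneg
  have z2 := h.tp_nonneg
  obtain ⟨Z, hZ⟩ : ∃ Z, Z = Y + ((2 * N)⁻¹⁻¹ * Φ.B.J (V * lo) +
    (2 * N)⁻¹ * Φ.B.J (w * Φ.lv (m + 1) f)) := ⟨_, rfl⟩
  have z4 : 0 ≤ (2 * N)⁻¹ * Φ.B.J (w * Φ.lv (m + 1) f) := by positivity
  have z5 : Φ.B.J (V * lo) ≤ (2 * N)⁻¹⁻¹ * Φ.B.J (V * lo) :=
    le_mul_of_one_le_left z1 (by rw [inv_inv]; linarith)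
  have z6 : 0 ≤ Z := by linarith
  have l : ∀ i, ∀ J : List (Fin 5), J.length = m + 1 → J.countP (· ∈ s) ≤ i + 1 →
      Φ.B.nsq w (f J) ≤ α ^ (i + 1) * Z := fun i => by
    induction i with
    | zero =>
      intro J hJ e
      have := h.base hS hJ e
      rw [zero_add, pow_one]
      nlinarith [mul_le_mul a1 (show Φ.B.J (V * lo) ≤ Z - Y by
        linarith) z1 (by linarith)]
    | succ i ih =>
      intro J hJ e
      rcases e.lt_or_eq with e | e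
      · refine (ih J hJ (by omega)).trans (mul_le_mul_of_nonneg_right ?_ z6)
        exact pow_le_pow_right₀ a2 (by omega)
      · have := h.step k1 c1 c2 (by positivity) d1 (one_le_pow₀ a2) (by linarith) ih hJ e
        rwa [← hα, ← pow_succ'] at this
  have t : Φ.B.J (w * Φ.lv (m + 1) f) ≤ N * Z := by
    rw [Hyp.tp_eq]
    refine (sum_le_card_nsmul _ _ (α ^ (m + 2) * Z) fun J hJ => ?_).trans ?_
    · rcases (mem_words.1 hJ).lt_or_eq with e | e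
      · have u := h.close (p := f J) (q := 0) (t := 1) fun x z => by
          rw [sub_zero, one_mul]; exact h.h1 x z J (by omega)
        rw [nsq, nsq, bil_zero_l] at u
        have a4 : α ≤ α ^ (m + 2) := le_self_pow₀ a2 (by omega)
        rw [nsq]
        nlinarith [mul_le_mul (show 2 ≤ α ^ (m + 2) by linarith)
          (show Φ.B.J (V * lo) ≤ Z by linarith) z1 (by linarith)]
      · exact l (m + 1) J e (List.countP_le_length.trans (by omega))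
    · rw [nsmul_eq_mul, hN]
      nlinarith [mul_nonneg (show 0 ≤ α ^ (m + 2) by linarith) z6]
  have u : N * ((2 * N)⁻¹ * Φ.B.J (w * Φ.lv (m + 1) f)) = Φ.B.J (w * Φ.lv (m + 1) f) / 2 := by
    field_simp
  rw [hZ, inv_inv, mul_add, mul_add, u] at t
  nlinarith [mul_nonneg (mul_nonneg (show 0 ≤ N by linarith) (show 0 ≤ N - 1 by linarith)) z3]

end Vale.Agent.P354PE
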