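import Vale.Agent.P354PE.Ind
import Vale.Agent.P354PE.Defs

/-!
The hypotheses of the abstract estimate, and the angular estimate ELA.
-/

open scoped ContDiff

namespace Vale.Agent.P354PE

open Vale.Agent.P354XG (Der D_mul D_add D_sub D_num D_one)
open Vale.Agent.P354XT Vale.Agent.P354XI Vale.Agent.P354XI.Ibp Finset
open Vale.Agent.P354BF (rp)

variable {A : Type} [CommRing A] [Algebra ℂ A] {Φ : Fld A}

section md
variable {B : Ibp A} {x : B.Pt} {p q : A} {s t : ℝ}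

theorem ad (h : B.md x p ≤ s) (k : B.md x q ≤ t) : B.md x (p + q) ≤ s + t :=
  (md_add x p q).trans (add_le_add h k)
theorem sb (h : B.md x p ≤ s) (k : B.md x q ≤ t) : B.md x (p - q) ≤ s + t :=
  (md_sub x p q).trans (add_le_add h k)
theorem mu (h : B.md x p ≤ s) (k : B.md x q ≤ t) : B.md x (p * q) ≤ s * t := by
  rw [md_mul]; exact mul_le_mul h k (md_nonneg _ _) ((md_nonneg _ _).trans h)
theorem md_two : B.md x 2 ≤ 2 := by rw [md, map_ofNat]; simp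
theorem md_one : B.md x 1 ≤ 1 := by rw [md, map_one]; simp
theorem ab {a b c d : ℝ} (h : |a| ≤ c) (k : |b| ≤ d) : |a * b| ≤ c * d := by
  rw [abs_mul]; exact mul_le_mul h k (abs_nonneg _) ((abs_nonneg _).trans h)

end md

theorem md_w (h : Φ.Is) (x : Φ.B.Pt) : Φ.B.md x (Φ.w 2) ≤ 1 := by
  have e := congrArg (Φ.B.val x) h.one
  simp only [Fin.sum_univ_three, val_add, h.B.val_mul (h.wre _), val_one] at e
  rw [h.B.md_re (h.wre 2), ← sq_le_one_iff_abs_le_one]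
  nlinarith [mul_self_nonneg (Φ.B.val x (Φ.w 0)), mul_self_nonneg (Φ.B.val x (Φ.w 1))]

theorem md_r (h : Φ.Is) (x : Φ.B.Pt) : Φ.B.md x Φ.r = |(Φ.pr x).2| := h.md_rad contDiff_id x

theorem md_De (h : Φ.Is) {x : Φ.B.Pt} {k M a : ℝ} (hr : |(Φ.pr x).2| ≤ k) (hM : |M| ≤ k)
    (ha : |a| ≤ k) : Φ.B.md x (Φ.De M a) ≤ 4 * k ^ 2 := by
  have r1 := (md_r h x).le.trans hr
  have m1 : Φ.B.md x (rl A (2 * M)) ≤ 2 * k := (h.B.md_rl x _).le.trans (ab (by simp) hM)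
  have a2 : Φ.B.md x (rl A (a ^ 2)) ≤ k * k := by rw [h.B.md_rl, sq]; exact ab ha ha
  exact (ad (sb (mu r1 r1) (mu m1 r1)) a2).trans (le_of_eq (by ring))

/-- The spatial part of the operator. -/
noncomputable def Sp (Φ : Fld A) (M a : ℝ) (u : A) : A :=
  Φ.De M a * Φ.X 1 (Φ.X 1 u) + Φ.X 2 (Φ.X 2 u) + Φ.X 3 (Φ.X 3 u) + Φ.X 4 (Φ.X 4 u) +
    rl A (2 * a) * Φ.X 4 (Φ.X 1 u)

theorem src_le (h : Φ.Is) {x : Φ.B.Pt} {k M a s y : ℝ} (k1 : 1 ≤ k) (hr : |(Φ.pr x).2| ≤ k)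
    (hM : |M| ≤ k) (ha : |a| ≤ k) (hs : |s| ≤ k) {u : A} {del : Fin 5 → Fin 5 → A}
    (h0 : Φ.B.md x u ≤ y) (h1 : ∀ b, Φ.B.md x (Φ.X b u) ≤ 2 * y)
    (hT : ∀ b, Φ.B.md x (Φ.X 0 (Φ.X b u)) ≤ y)
    (hP : Φ.B.md x (Φ.P s s M a u + Φ.Q del u) ≤ y)
    (hQ : ∀ b c, Φ.B.md x (del b c * Φ.X b (Φ.X c u)) ≤ 2 * y) :
    Φ.B.md x (Sp Φ M a u) ≤ 93 * k ^ 2 * y := by
  have e : Sp Φ M a u =
      Φ.P s s M a u + Φ.Q del u - Φ.Q del u - (rl A (1 - s) * (2 * Φ.r - rl A (2 * M)) * Φ.X 1 u +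
        2 * ((Φ.r * Φ.r + rl A (a ^ 2)) * Φ.X 0 (Φ.X 1 u)) +
        rl A (2 * (1 - 2 * s)) * Φ.r * Φ.X 0 u + rl A (s ^ 2 - s) * u +
        rl A (a ^ 2) * (1 - Φ.w 2 * Φ.w 2) * Φ.X 0 (Φ.X 0 u) + rl A (2 * a) * Φ.X 0 (Φ.X 4 u) -
        algebraMap ℂ A (2 * s * a * Complex.I) * Φ.w 2 * Φ.X 0 u) := by
    simp only [Sp, Fld.P, Fld.Kh, Fin.sum_univ_three, Fld.X0, Fld.X1, Fld.X2, Fld.X3, Fld.X4,
      rl_mul 2 a, rl_two]
    ring
  have y0 : 0 ≤ y := (md_nonneg _ _).trans h0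
  have r1 := (md_r h x).le.trans hr
  have w1 := md_w h x
  have c : ∀ {t b : ℝ}, |t| ≤ b → Φ.B.md x (rl A t) ≤ b := fun e => (h.B.md_rl x _).le.trans e
  obtain ⟨s1, s2⟩ := abs_le.1 hs
  have c1 := c (show |1 - s| ≤ 2 * k from abs_le.2 ⟨by linarith, by linarith⟩)
  have c2 := c (show |2 * M| ≤ 2 * k from ab (by simp) hM)
  have c3 := c (show |a ^ 2| ≤ k * k by rw [sq]; exact ab ha ha)
  have c4 := c (show |2 * (1 - 2 * s)| ≤ 6 * k from abs_le.2 ⟨by linarith, by linarith⟩)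
  have c5 := c (show |s ^ 2 - s| ≤ k * (2 * k) by
    rw [show s ^ 2 - s = s * (s - 1) by ring]; exact ab hs (abs_le.2 ⟨by linarith, by linarith⟩))
  have c6 := c (show |2 * a| ≤ 2 * k from ab (by simp) ha)
  have c7 : Φ.B.md x (algebraMap ℂ A (2 * s * a * Complex.I)) ≤ 2 * k * k := by
    rw [md, h.B.ev_alg, norm_mul, Complex.norm_I, mul_one, ← Complex.ofReal_ofNat,
      ← Complex.ofReal_mul, ← Complex.ofReal_mul, Complex.norm_real, Real.norm_eq_abs]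
    exact ab (ab (by simp) hs) ha
  have q : Φ.B.md x (Φ.Q del u) ≤ 50 * y := by
    refine (md_sum x _ _).trans ((sum_le_sum fun b _ => (md_sum x _ _).trans
      (sum_le_sum fun c _ => hQ b c)).trans (le_of_eq ?_))
    simp
    ring
  rw [e]
  refine (sb (sb hP q) (sb (ad (ad (ad (ad (ad (mu (mu c1 (sb (mu md_two r1) c2)) (h1 1))
    (mu md_two (mu (ad (mu r1 r1) c3) (hT 1)))) (mu (mu c4 r1) (h1 0)))
    (mu c5 h0)) (mu (mu c3 (sb md_one (mu w1 w1))) (hT 0))) (mu c6 (hT 4)))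
    (mu (mu c7 w1) (h1 0)))).trans ?_
  have k2 : k ≤ k ^ 2 := le_self_pow₀ k1 two_ne_zero
  nlinarith [mul_le_mul_of_nonneg_right k2 y0, mul_le_mul_of_nonneg_right (k1.trans k2) y0]

/-- The density of lower order. -/
noncomputable def low (Φ : Fld A) (D : Dat A) (Cf : ℝ) (m : ℕ) : A :=
  rl A (1 + |Cf|) * Φ.lv m D.f + D.rho

section fam
variable {D : Dat A} {M a Cf rm rI R0 R1 e : ℝ} {n k m : ℕ} (h : Φ.Is)
  (F : Fam Φ D M a n k Cf rm rI R0 R1 e) {x : Φ.B.Pt}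
include h F

theorem low_ge (x : Φ.B.Pt) : Φ.B.val x (Φ.lv m D.f) ≤ Φ.B.val x (low Φ D Cf m) ∧
    Φ.B.val x D.rho ≤ Φ.B.val x (low Φ D Cf m) ∧
    Cf * Φ.B.val x (Φ.lv m D.f) + Φ.B.val x D.rho ≤ Φ.B.val x (low Φ D Cf m) := by
  rw [low, val_add, h.B.val_mul (h.B.re_rl _), h.B.val_rl]
  have a := h.lv_nonneg x m D.f
  have b := F.rpos x
  have c := mul_le_mul_of_nonneg_right (le_abs_self Cf) a
  have d := mul_nonneg (abs_nonneg Cf) a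
  exact ⟨by linarith, by linarith, by linarith⟩

omit h in
theorem del_le (hx : Φ.pr x ∈ Set.Icc D.t1 (D.t1 + D.K + 2) ×ˢ Set.Icc D.r00 (4 * R1)) (b c) :
    Φ.B.md x (D.del b c) ≤ e := by
  have t0 : 0 ≤ (Φ.pr x).1 - D.t1 := sub_nonneg.2 hx.1.1
  have a1 := Nat.floor_le t0
  have a2 := Nat.lt_floor_add_one ((Φ.pr x).1 - D.t1)
  rcases le_total ⌊(Φ.pr x).1 - D.t1⌋₊ D.K with z | z
  · exact (F.del _ z x ⟨⟨by linarith, by linarith⟩, hx.2⟩ b c [] (mem_words.2 (by simp))).trans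
      (F.hpos _).2
  · have z' : (D.K : ℝ) ≤ ⌊(Φ.pr x).1 - D.t1⌋₊ := by exact_mod_cast z
    exact (F.del _ le_rfl x ⟨⟨by linarith, hx.1.2⟩, hx.2⟩ b c [] (mem_words.2 (by simp))).trans
      (F.hpos _).2

/-- The hypotheses of the abstract estimate. -/
theorem hyp {s : Finset (Fin 5)} {c : Fin 5 → A} {w V : A} {κ c0 δ b : ℝ} (n1 : 1 ≤ n)
    (hm : m ≤ n + k) (hR : 3 * R0 ≤ 4 * R1) (b1 : 1 ≤ b) (hM : |M| ≤ b) (ha : |a| ≤ b)
    (hs : |Φ.s| ≤ b) (d1 : δ ≤ 1) (he : e ≤ δ) (s0 : 0 ∉ s) (wt : Φ.B.Wt w) (Vt : Φ.B.Wt V) (le : ∀ x, Φ.B.val x w ≤ Φ.B.val x V)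
    (rc : ∀ a, Φ.B.Re (c a)) (box : ∀ x, Φ.B.val x V ≠ 0 → |(Φ.pr x).2| ≤ b ∧
      Φ.pr x ∈ Set.Icc D.t1 (D.t1 + D.K + 2) ×ˢ Set.Icc D.r00 (3 * R0))
    (e0 : ∀ x, ∀ a ∈ s, ∀ b ∈ s, Φ.B.md x (w * c a * c b) ^ 2 ≤ κ * (Φ.B.val x w * Φ.B.val x V))
    (e1 : ∀ x, ∀ a ∈ s, ∀ b ∈ s, ∀ d ∈ s,
      Φ.B.md x (Φ.X d (w * c a * c b)) ^ 2 ≤ κ * (Φ.B.val x w * Φ.B.val x V))
    (e2 : ∀ x, ∀ a ∈ s, ∀ b ∈ s, c0 * Φ.B.val x w ≤ Φ.B.val x (w * c a * c b))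
    (e3 : ∀ x, Φ.B.val x V ≠ 0 → ∀ u y, 0 ≤ y → (∀ a ∉ s, ∀ b, Φ.B.md x (Φ.X a (Φ.X b u)) ≤ y) →
      Φ.B.md x (Sp Φ M a u) ≤ 93 * b ^ 2 * y →
      Φ.B.md x (∑ a ∈ s, c a * Φ.X a (Φ.X a u)) ^ 2 ≤ κ * y ^ 2 +
        (∑ a ∈ s, ∑ b ∈ s, Φ.B.val x (c a * c b) * Φ.B.md x (Φ.X b (Φ.X a u)) ^ 2) / 2) :
    Hyp Φ s c D.f w V (low Φ D Cf m) m κ c0 δ := by
  have bx : ∀ x, Φ.B.val x V ≠ 0 →
      Φ.pr x ∈ Set.Icc D.t1 (D.t1 + D.K + 2) ×ˢ Set.Icc D.r00 (4 * R1) := fun x z =>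
    ⟨(box x z).2.1, (box x z).2.2.1, (box x z).2.2.2.trans hR⟩
  have g1 : ∀ x (J : List (Fin 5)), J.length ≤ m →
      Φ.B.md x (D.f J) ^ 2 ≤ Φ.B.val x (low Φ D Cf m) := fun x J hJ =>
    (h.le_lv x D.f hJ).trans (low_ge h F x).1
  have g2 : ∀ x, Φ.B.val x V ≠ 0 → ∀ a (J : List (Fin 5)), J.length ≤ m →
      Φ.B.md x (Φ.X a (D.f J) - D.f (a :: J)) ^ 2 ≤ Φ.B.val x (low Φ D Cf m) := fun x z a J hJ =>
    (F.hon x (bx x z) [a] J (by simp) (by simp; omega)).trans (low_ge h F x).2.1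
  have g3 : ∀ x, Φ.B.val x V ≠ 0 → ∀ a b (J : List (Fin 5)), J.length + 1 = m →
      Φ.B.md x (Φ.X a (Φ.X b (D.f J)) - D.f (a :: b :: J)) ^ 2 ≤ Φ.B.val x (low Φ D Cf m) :=
    fun x z a b J hJ =>
      (F.hon x (bx x z) [a, b] J (by simp; omega) (by simp; omega)).trans (low_ge h F x).2.1
  have lp : ∀ x, 0 ≤ Φ.B.val x (low Φ D Cf m) := fun x => (F.rpos x).trans (low_ge h F x).2.1
  refine ⟨h, wt, Vt, le, lp, rc, e0, e1, e2, fun x _ => g1 x, g2, g3, fun x z p q b c l => ?_,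
    fun x z J l => ?_⟩
  · have := F.swap x (box x z).2 p q b c (by omega)
    rw [l] at this
    exact this.trans (low_ge h F x).2.2
  have t0 := h.lv_nonneg x (m + 1) D.f
  have e4 : 0 ≤ e := (F.hpos 0).1.le.trans (F.hpos 0).2
  have p0 : ∀ a, 0 ≤ ∑ b, Φ.B.md x (Φ.X a (Φ.X b (D.f J))) ^ 2 := fun a => by positivity
  have p1 := sum_nonneg fun a (_ : a ∈ sᶜ) => p0 a
  have p2 := mul_nonneg (e4.trans he) t0
  have p3 := lp x
  obtain ⟨y, hy⟩ : ∃ y, y = ∑ a ∈ sᶜ, ∑ b, Φ.B.md x (Φ.X a (Φ.X b (D.f J))) ^ 2 +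
    Φ.B.val x (low Φ D Cf m) + δ * Φ.B.val x (Φ.lv (m + 1) D.f) := ⟨_, rfl⟩
  have y0 : 0 ≤ y := by linarith
  have y1 := Real.sq_sqrt y0
  have y2 := Real.sqrt_nonneg y
  have u0 : ∀ a ∉ s, ∀ b, Φ.B.md x (Φ.X a (Φ.X b (D.f J))) ≤ √y := fun a ha b =>
    Real.le_sqrt_of_sq_le (by
      linarith [single_le_sum (f := fun b => Φ.B.md x (Φ.X a (Φ.X b (D.f J))) ^ 2)
        (fun _ _ => sq_nonneg _) (mem_univ b), single_le_sum (fun a _ => p0 a) (mem_compl.2 ha)])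
  have u1 := src_le h b1 (box x z).1 hM ha hs (u := D.f J) (del := D.del) (y := √y)
    (Real.le_sqrt_of_sq_le (by linarith [g1 x J (by omega)]))
    (fun b => (abs_le_of_sq_le_sq' (by
      linarith [sq_split x (Φ.X b (D.f J)) (D.f (b :: J)), g2 x z b J (by omega),
        g1 x (b :: J) l.le, mul_pow 2 (√y) 2]) (by positivity)).2) (u0 0 s0)
    (Real.le_sqrt_of_sq_le (by
      have := F.eqA x (box x z).2 J (mem_words.2 (by omega))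
      rw [l] at this
      linarith [(low_ge (m := m) h F x).2.2]))
    fun b c => (abs_le_of_sq_le_sq' (by
      have v1 := sq_split x (Φ.X b (Φ.X c (D.f J))) (D.f (b :: c :: J))
      have v2 := g3 x z b c J l
      have v3 := h.le_lv x D.f (J := b :: c :: J) (m := m + 1) (by simp; omega)
      have v4 : Φ.B.md x (D.del b c) ^ 2 ≤ δ := by
        nlinarith [del_le F (bx x z) b c, md_nonneg x (D.del b c)]
      have v5 := mul_le_mul v4 (show Φ.B.md x (Φ.X b (Φ.X c (D.f J))) ^ 2 ≤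
        2 * Φ.B.val x (Φ.lv (m + 1) D.f) + 2 * Φ.B.val x (low Φ D Cf m) by linarith)
        (sq_nonneg _) (e4.trans he)
      rw [md_mul, mul_pow, mul_pow]
      nlinarith [mul_le_of_le_one_left p3 d1]) (by positivity)).2
  have u2 := e3 x z _ _ y2 u0 u1
  rwa [y1, hy] at u2

omit F in
theorem val_fn {φ : ℝ × ℝ → ℝ} (hφ : ContDiff ℝ ∞ φ) (x : Φ.B.Pt) :
    Φ.B.val x (Φ.fn φ) = φ (Φ.pr x) := by rw [Ibp.val, h.ev φ hφ, Complex.ofReal_re]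

theorem wt_fn {φ : ℝ × ℝ → ℝ} (hφ : ContDiff ℝ ∞ φ) (p : ∀ p, 0 ≤ φ p) (hR : 3 * R0 ≤ 4 * R1)
    (o : ∀ p, p ∉ Set.Icc D.t1 (D.t1 + D.K + 2) ×ˢ Set.Icc D.r00 (3 * R0) → φ p = 0) :
    Φ.B.Wt (Φ.fn φ) :=
  ⟨h.cs _ (isCompact_Icc.prod isCompact_Icc)
      ((Set.prod_mono le_rfl (Set.Icc_subset_Icc_right hR)).trans F.box) _ fun x hx => by
        rw [h.ev φ hφ, o _ hx, Complex.ofReal_zero],
    h.re φ hφ, fun x => by rw [val_fn h hφ]; exact p _⟩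

theorem low_le {V : A} (hV : Φ.B.Wt V) {C Y T : ℝ} (C0 : 0 < C) (Y0 : 0 ≤ Y)
    (e : T ≤ C * (Y + Φ.B.J (V * low Φ D Cf m))) :
    T ≤ C * (1 + |Cf|) * (Y + Φ.B.J (V * Φ.lv m D.f) + Φ.B.J (V * D.rho)) := by
  have a : 0 ≤ Φ.B.J (V * D.rho) := by
    rw [← J_zero (B := Φ.B)]
    exact h.B.J_le Φ.B.K.zero_mem (Φ.B.K.mul_mem_right _ hV.K) fun x => by
      rw [val_zero, h.B.val_mul hV.re]; exact mul_nonneg (hV.pos x) (F.rpos x)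
  rw [low, mul_add V, J_add, mul_left_comm, J_rl] at e
  rw [mul_assoc]
  exact e.trans (mul_le_mul_of_nonneg_left (by
    nlinarith [mul_nonneg (abs_nonneg Cf) Y0, mul_nonneg (abs_nonneg Cf) a]) C0.le)

end fam

theorem jq_nonneg (h : Φ.Is) {w : A} (hw : Φ.B.Wt w) (u : A) : 0 ≤ Φ.B.J (w * Φ.jq 1 u) := by
  rw [Fld.jq, Fld.lv, mul_sum, J_sum]
  exact sum_nonneg fun _ _ => h.B.nsq_nonneg hw _

theorem near {x x0 : ℝ} (h : |x - x0| < 1) : |x| ≤ |x0| + 1 := by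
  linarith [abs_sub_abs_le_abs_sub x x0]

theorem md_2a (h : Φ.Is) (x : Φ.B.Pt) {a b : ℝ} (ha : |a| ≤ b) :
    Φ.B.md x (rl A (2 * a)) ≤ 2 * b := (h.B.md_rl x _).le.trans (ab (by simp) ha)

theorem fin3 {x : Φ.B.Pt} {g u : A} {t y : ℝ} {s : Finset (Fin 5)} {c : Fin 5 → A}
    (e : Φ.B.md x g ≤ t * y) (p : ∀ a ∈ s, ∀ b ∈ s, 0 ≤ Φ.B.val x (c a * c b)) :
    Φ.B.md x g ^ 2 ≤ t ^ 2 * y ^ 2 +
      (∑ a ∈ s, ∑ b ∈ s, Φ.B.val x (c a * c b) * Φ.B.md x (Φ.X b (Φ.X a u)) ^ 2) / 2 := by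
  rw [← mul_pow]
  exact le_add_of_le_of_nonneg (pow_le_pow_left₀ (md_nonneg _ _) e 2) (div_nonneg
    (sum_nonneg fun a ha => sum_nonneg fun b hb => mul_nonneg (p a ha b hb) (sq_nonneg _))
    zero_le_two)

/-- ELA. -/
theorem ela : ELA := by
  intro M0 a0 rm R0 Cf s n k r0 n1
  obtain ⟨b, hb⟩ : ∃ b, b = 1 + |M0| + |a0| + |s| + 3 * |R0| := ⟨_, rfl⟩
  have p1 := abs_nonneg M0
  have p2 := abs_nonneg a0
  have p3 := abs_nonneg s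
  have p4 := abs_nonneg R0
  have b1 : 1 ≤ b := by linarith
  have b2 : 1 ≤ (100 * b ^ 2) ^ 2 := one_le_pow₀ (by nlinarith)
  choose C δ hC hδ d1 H using core b2 one_pos le_rfl
  obtain ⟨C1, c1⟩ := (range (n + k + 1)).finite_toSet.image C |>.bddAbove
  obtain ⟨j0, -, c2⟩ := exists_min_image (range (n + k + 1)) δ ⟨0, by simp⟩
  have c3 : ∀ m ≤ n + k, C m ≤ C1 := fun m hm => c1 ⟨m, by simp; omega, rfl⟩
  have c4 := (hC 0).trans_le (c3 0 (by omega))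
  refine ⟨C1 * (1 + |Cf|), δ j0, by positivity, hδ j0, ?_⟩
  intro M a rI R1 e hM ha hR he A _ _ Φ D h hs F m hm φ sφ pφ oφ
  have wt := wt_fn h F sφ pφ hR oφ
  have z0 := sum_nonneg fun j (_ : j ∈ range (m + 1)) => sum_nonneg
    fun W (_ : W ∈ yw (m - j)) => jq_nonneg h wt (D.f (List.replicate j 1 ++ W))
  have aM : |M| ≤ b := by linarith [near hM]
  have aa : |a| ≤ b := by linarith [near ha]
  have bx : ∀ x, Φ.B.val x (Φ.fn φ) ≠ 0 → |(Φ.pr x).2| ≤ b ∧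
      Φ.pr x ∈ Set.Icc D.t1 (D.t1 + D.K + 2) ×ˢ Set.Icc D.r00 (3 * R0) := fun x z => by
    have q : Φ.pr x ∈ _ := by_contra fun q => z (by rw [val_fn h sφ, oφ _ q])
    exact ⟨abs_le.2 ⟨by linarith [q.2.1, F.rm], by linarith [q.2.2, le_abs_self R0]⟩, q⟩
  have hy := hyp h F (s := {2, 3}) (c := fun _ => 1) (c0 := 1) (κ := (100 * b ^ 2) ^ 2) n1 hm hR b1
    aM aa (by rw [hs]; linarith) (d1 m)
    (he.trans (c2 m (by simp; omega))) (by decide) wt wt (fun _ => le_rfl) (fun _ => re_one) bx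
    (fun x _ _ _ _ => by
      rw [mul_one, mul_one, h.B.md_re wt.re, sq_abs, ← sq]
      exact le_mul_of_one_le_left (sq_nonneg _) b2)
    (fun x _ _ _ _ d hd => by
      have : Φ.X d (Φ.fn φ) = 0 := by
        rcases mem_insert.1 hd with rfl | hd
        exacts [h.Lf φ sφ 0, by rw [mem_singleton.1 hd]; exact h.Lf φ sφ 1]
      rw [mul_one, mul_one, this, md_zero, ← sq, zero_pow two_ne_zero]
      positivity)
    (fun x _ _ _ _ => by rw [mul_one, mul_one, one_mul])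
    fun x z u y y0 u0 u1 => fin3 (by
      have e : ∑ d ∈ ({2, 3} : Finset (Fin 5)), 1 * Φ.X d (Φ.X d u) = Sp Φ M a u -
          Φ.De M a * Φ.X 1 (Φ.X 1 u) - Φ.X 4 (Φ.X 4 u) - rl A (2 * a) * Φ.X 4 (Φ.X 1 u) := by
        rw [sum_pair (by decide), Sp]; ring
      rw [e]
      refine (sb (sb (sb u1 (mu (md_De h (bx x z).1 aM aa) (u0 1 (by decide) 1)))
        (u0 4 (by decide) 4)) (mu (md_2a h x aa) (u0 4 (by decide) 1))).trans ?_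
      have k2 : b ≤ b ^ 2 := le_self_pow₀ b1 two_ne_zero
      nlinarith [mul_le_mul_of_nonneg_right k2 y0, mul_le_mul_of_nonneg_right (b1.trans k2) y0])
      fun _ _ _ _ => by rw [mul_one, val_one]; exact zero_le_one
  refine low_le h F wt c4 z0 ((H m A Φ _ _ _ _ _ _ hy _ z0 fun J l c => ?_).trans
    (mul_le_mul_of_nonneg_right (c3 m hm) (add_nonneg z0 hy.lo_nonneg)))
  have q1 := (List.filter_append_perm (· == 1) J).symm
  rw [List.filter_beq] at q1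
  have q2 := q1.length_eq
  rw [List.length_append, List.length_replicate] at q2
  refine ⟨_, q1, (single_le_sum (f := fun W => Φ.B.J (Φ.fn φ * Φ.jq 1
    (D.f (List.replicate (J.count 1) 1 ++ W)))) (fun W _ => jq_nonneg h wt _)
    (mem_yw.2 ⟨(by omega : _ = m - J.count 1), fun d hd => ?_⟩)).trans
    (single_le_sum (f := fun j => ∑ W ∈ yw (m - j), Φ.B.J (Φ.fn φ * Φ.jq 1
      (D.f (List.replicate j 1 ++ W)))) (fun j _ => sum_nonneg fun W _ => jq_nonneg h wt _)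
      (mem_range.2 (by omega)))⟩
  obtain ⟨q3, q4⟩ := List.mem_filter.1 hd
  have q5 := List.countP_eq_zero.1 c d q3
  revert q4 q5
  clear hd q3
  revert d
  decide

end Vale.Agent.P354PE
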